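import Vale.Agent.P070.Club.StepGood.Window
import Vale.Agent.P070.Club.Excise

/-!
# Compression and separation for a member of the club of the next node

With `C = gen C₀ s`: the whole algebra of the step is the span of `C` and of elements `y X y'`
where `Q₁ X Q₁ = 0`; the cyclic projection of `C` lies under `Q₁` and separates `C`.
-/

namespace Vale.Agent.P070.Club

open ContinuousLinearMap
open scoped InnerProductSpace

set_option linter.unusedSectionVars false

variable {K : Type} [NormedAddCommGroup K] [InnerProductSpace ℂ K] [CompleteSpace K]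
  {d : StepData K} (M : Model d) (ξ : K) (C₀ : StarSubalgebra ℂ (Op K)) (s : Set d.E)

/-- Products `g₁ y₁ g₂ ⋯ gₖ` of elements of the other edges with zero corner and elements of the
member with zero window. -/
inductive Model.Word : Op M.H → Prop
  | base {g : Op M.H} : g ∈ M.gen d.A sᶜ → M.Q₁ ξ C₀ s * g * M.Q₁ ξ C₀ s = 0 → Model.Word g
  | cons {g y X : Op M.H} : g ∈ M.gen d.A sᶜ → M.Q₁ ξ C₀ s * g * M.Q₁ ξ C₀ s = 0 →
      y ∈ M.gen C₀ s → M.W ξ C₀ s * y * M.W ξ C₀ s = 0 → Model.Word X → Model.Word (g * y * X)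

/-- The span of the member and of its translates of words. -/
def Model.L : Submodule ℂ (Op M.H) :=
  Submodule.span ℂ ((M.gen C₀ s : Set (Op M.H)) ∪
    {z | ∃ y ∈ M.gen C₀ s, ∃ X, M.Word ξ C₀ s X ∧ ∃ y' ∈ M.gen C₀ s, y * X * y' = z})

variable {M ξ C₀ s} (h : M.Ctx ξ C₀ s)
include h

lemma Model.Ctx.mem_L {y : Op M.H} (hy : y ∈ M.gen C₀ s) : y ∈ M.L ξ C₀ s :=
  Submodule.subset_span (Or.inl hy)

lemma Model.Ctx.word_mem_L {y X y' : Op M.H} (hy : y ∈ M.gen C₀ s) (hX : M.Word ξ C₀ s X)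
    (hy' : y' ∈ M.gen C₀ s) : y * X * y' ∈ M.L ξ C₀ s :=
  Submodule.subset_span (Or.inr ⟨y, hy, X, hX, y', hy', rfl⟩)

lemma Model.Ctx.ι_mem {c : Op K} (hc : c ∈ C₀) : M.ι c ∈ M.gen d.A sᶜ :=
  M.ι_mem_gen (h.comp.le hc) _

/-- Split off the member part of an element of the algebra of the other edges. -/
lemma Model.Ctx.split {a : Op M.H} (ha : a ∈ M.gen d.A sᶜ) :
    ∃ c ∈ C₀, ∃ g ∈ M.gen d.A sᶜ, M.Q₁ ξ C₀ s * g * M.Q₁ ξ C₀ s = 0 ∧ a = M.ι c + g := by
  obtain ⟨c, hc, he⟩ := h.compress_Q₁ ha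
  refine ⟨c, hc, a - M.ι c, sub_mem ha (h.ι_mem hc), ?_, by abel⟩
  rw [mul_sub, sub_mul, he, ← h.Q₁_ιC hc, mul_assoc, h.Q₁_idem, sub_self]

/-- Split off the coefficient part of an element of the member. -/
lemma Model.Ctx.split_member {y : Op M.H} (hy : y ∈ M.gen C₀ s) :
    ∃ c ∈ C₀, ∃ y₀ ∈ M.gen C₀ s, M.W ξ C₀ s * y₀ * M.W ξ C₀ s = 0 ∧ y = M.ι c + y₀ := by
  refine ⟨M.down y, h.down_mem hy, y - M.ι (M.down y),
    sub_mem hy (M.ι_mem_gen (h.down_mem hy) s), ?_, by abel⟩
  rw [mul_sub, sub_mul, h.compress_W hy, ← h.W_ιC (h.down_mem hy), mul_assoc, h.W_idem, sub_self]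

lemma Model.Ctx.mul_word_mem {g : Op M.H} (hg : g ∈ M.gen d.A sᶜ)
    (hg0 : M.Q₁ ξ C₀ s * g * M.Q₁ ξ C₀ s = 0) {y X y' : Op M.H} (hy : y ∈ M.gen C₀ s)
    (hX : M.Word ξ C₀ s X) (hy' : y' ∈ M.gen C₀ s) : g * (y * X * y') ∈ M.L ξ C₀ s := by
  obtain ⟨c, hc, y₀, hy₀, hy0, rfl⟩ := h.split_member hy
  have e : g * ((M.ι c + y₀) * X * y') = g * M.ι c * X * y' + 1 * (g * y₀ * X) * y' := by
    noncomm_ring
  rw [e]
  refine add_mem ?_ (h.word_mem_L (one_mem _) (Model.Word.cons hg hg0 hy₀ hy0 hX) hy')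
  cases hX with
  | base hg₁ _ =>
    obtain ⟨c', hc', g', hg', hg'0, he⟩ := h.split (mul_mem (mul_mem hg (h.ι_mem hc)) hg₁)
    rw [he, add_mul]
    refine add_mem (h.mem_L (mul_mem (M.ι_mem_gen hc' s) hy')) ?_
    simpa using h.word_mem_L (one_mem _) (Model.Word.base hg' hg'0) hy'
  | @cons g₁ y₁ X' hg₁ _ hy₁ hy₁0 hX' =>
    obtain ⟨c', hc', g', hg', hg'0, he⟩ := h.split (mul_mem (mul_mem hg (h.ι_mem hc)) hg₁)
    have e' : g * M.ι c * (g₁ * y₁ * X') * y' =
        (M.ι c' * y₁) * X' * y' + 1 * (g' * y₁ * X') * y' := by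
      rw [show g * M.ι c * (g₁ * y₁ * X') * y' = (g * M.ι c * g₁) * (y₁ * X' * y') by
        simp only [mul_assoc], he]
      noncomm_ring
    rw [e']
    exact add_mem (h.word_mem_L (mul_mem (M.ι_mem_gen hc' s) hy₁) hX' hy')
      (h.word_mem_L (one_mem _) (Model.Word.cons hg' hg'0 hy₁ hy₁0 hX') hy')

lemma Model.Ctx.mul_mem_L {x : Op M.H} (hx : x ∈ M.gen C₀ s ∨ x ∈ M.gen d.A sᶜ) {z : Op M.H}
    (hz : z ∈ M.L ξ C₀ s) : x * z ∈ M.L ξ C₀ s := by
  suffices h2 : M.L ξ C₀ s ≤ (M.L ξ C₀ s).comap (LinearMap.mulLeft ℂ x) from h2 hz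
  refine Submodule.span_le.2 ?_
  rintro w (hw | ⟨y, hy, X, hX, y', hy', rfl⟩)
  · show x * w ∈ M.L ξ C₀ s
    rcases hx with hx | hx
    · exact h.mem_L (mul_mem hx hw)
    obtain ⟨c, hc, g, hg, hg0, rfl⟩ := h.split hx
    rw [add_mul]
    refine add_mem (h.mem_L (mul_mem (M.ι_mem_gen hc s) hw)) ?_
    simpa using h.word_mem_L (one_mem _) (Model.Word.base hg hg0) hw
  · show x * (y * X * y') ∈ M.L ξ C₀ s
    rcases hx with hx | hx
    · rw [← mul_assoc, ← mul_assoc]
      exact h.word_mem_L (mul_mem hx hy) hX hy'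
    obtain ⟨c, hc, g, hg, hg0, rfl⟩ := h.split hx
    rw [add_mul]
    refine add_mem ?_ (h.mul_word_mem hg hg0 hy hX hy')
    rw [← mul_assoc, ← mul_assoc]
    exact h.word_mem_L (mul_mem (M.ι_mem_gen hc s) hy) hX hy'

lemma Model.Ctx.adjoin_le_L {x : Op M.H}
    (hx : x ∈ StarAlgebra.adjoin ℂ (M.ι '' d.A ∪ M.U '' {f | f.1 ∈ Set.univ})) :
    x ∈ M.L ξ C₀ s := by
  have key : (∀ z ∈ M.L ξ C₀ s, x * z ∈ M.L ξ C₀ s) ∧
      ∀ z ∈ M.L ξ C₀ s, star x * z ∈ M.L ξ C₀ s := by
    induction hx using StarAlgebra.adjoin_induction with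
    | mem w hw =>
      rcases hw with ⟨a, ha, rfl⟩ | ⟨f, -, rfl⟩
      · exact ⟨fun z hz => h.mul_mem_L (Or.inr (M.ι_mem_gen ha _)) hz, fun z hz => by
          rw [← map_star]; exact h.mul_mem_L (Or.inr (M.ι_mem_gen (star_mem ha) _)) hz⟩
      · have hU : ∀ f : d.E × Bool, M.U f ∈ M.gen C₀ s ∨ M.U f ∈ M.gen d.A sᶜ := fun f => by
          by_cases hf : f.1 ∈ s
          · exact Or.inl (M.U_mem_gen _ hf)
          · exact Or.inr (M.U_mem_gen _ hf)
        exact ⟨fun z hz => h.mul_mem_L (hU f) hz,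
          fun z hz => by rw [M.U_star]; exact h.mul_mem_L (hU _) hz⟩
    | algebraMap r =>
      constructor <;> intro z hz <;>
        simp only [Algebra.algebraMap_eq_smul_one, star_smul, star_one, smul_mul_assoc, one_mul]
      · exact (M.L ξ C₀ s).smul_mem r hz
      · exact (M.L ξ C₀ s).smul_mem _ hz
    | add a b _ _ iha ihb =>
      exact ⟨fun z hz => by rw [add_mul]; exact add_mem (iha.1 z hz) (ihb.1 z hz),
        fun z hz => by rw [star_add, add_mul]; exact add_mem (iha.2 z hz) (ihb.2 z hz)⟩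
    | mul a b _ _ iha ihb =>
      exact ⟨fun z hz => by rw [mul_assoc]; exact iha.1 _ (ihb.1 z hz),
        fun z hz => by rw [star_mul, mul_assoc]; exact ihb.2 _ (iha.2 z hz)⟩
    | star a _ ih => exact ⟨ih.2, by rw [star_star]; exact ih.1⟩
  simpa using key.1 1 (h.mem_L (one_mem _))

/-- Words have zero corner under `Q₁`. -/
lemma Model.Ctx.word_corner {X : Op M.H} (hX : M.Word ξ C₀ s X) :
    M.Q₁ ξ C₀ s * X * M.Q₁ ξ C₀ s = 0 := by
  induction hX with
  | base _ hg0 => exact hg0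
  | @cons g y X' _ hg0 _ hy0 _ ih =>
    set R := M.Q₁ ξ C₀ s with hR
    set W := M.W ξ C₀ s with hW
    have e0 : (1 - R) * y * (1 - R) = 0 := by
      calc (1 - R) * y * (1 - R) = ((1 - R) * W) * y * (W * (1 - R)) := by
            rw [h.one_sub_Q₁_mul_W, h.W_mul_one_sub_Q₁]
        _ = (1 - R) * (W * y * W) * (1 - R) := by simp only [mul_assoc]
        _ = 0 := by rw [hy0, mul_zero, zero_mul]
    have e : R * (g * y * X') * R = R * g * R * (y * X' * R) +
        R * g * (1 - R) * y * (R * X' * R) + R * g * ((1 - R) * y * (1 - R)) * (X' * R) := by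
      noncomm_ring
    rw [e, hg0, ih, e0]
    simp

/-- The cyclic space of the member lies under `Q₁`. -/
lemma Model.Ctx.Q₁_mul_cyc :
    M.Q₁ ξ C₀ s * cyc (M.gen C₀ s) (M.J ξ) = cyc (M.gen C₀ s) (M.J ξ) := by
  refine mul_cyc_eq fun y hy => ?_
  have h1 : (1 - M.Q₁ ξ C₀ s) (y (M.J ξ)) = 0 := by
    have hq : M.Q₁ ξ C₀ s (M.ι (M.down y) (M.J ξ)) = M.ι (M.down y) (M.J ξ) := by
      rw [M.comm]
      show M.ι (cyc C₀ ξ) (M.W₁ s (M.J _)) = _
      rw [M.W₁_J, M.comm, cyc_fix C₀ ξ (h.down_mem hy)]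
    calc (1 - M.Q₁ ξ C₀ s) (y (M.J ξ))
        = ((1 - M.Q₁ ξ C₀ s) * (M.W ξ C₀ s * y * M.W ξ C₀ s)) (M.J ξ) := by
          rw [← mul_assoc, ← mul_assoc, h.one_sub_Q₁_mul_W]
          show _ = (1 - M.Q₁ ξ C₀ s) (y (M.W ξ C₀ s (M.J ξ)))
          rw [h.W_J]
      _ = (1 - M.Q₁ ξ C₀ s) (M.ι (M.down y) (M.W ξ C₀ s (M.J ξ))) := by
          rw [h.compress_W hy]; rfl
      _ = 0 := by
          rw [h.W_J]
          show M.ι (M.down y) (M.J ξ) - M.Q₁ ξ C₀ s (M.ι (M.down y) (M.J ξ)) = 0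
          rw [hq, sub_self]
  exact (sub_eq_zero.1 h1).symm

lemma Model.Ctx.ιP_mul_cyc :
    M.ι (cyc C₀ ξ) * cyc (M.gen C₀ s) (M.J ξ) = cyc (M.gen C₀ s) (M.J ξ) := by
  conv_lhs => rw [← h.Q₁_mul_cyc, ← mul_assoc, h.ιP_Q₁]
  exact h.Q₁_mul_cyc

/-- The corner of a translate of a word under the cyclic projection vanishes. -/
lemma Model.Ctx.cyc_word {y X y' : Op M.H} (hy : y ∈ M.gen C₀ s) (hX : M.Word ξ C₀ s X)
    (hy' : y' ∈ M.gen C₀ s) :
    cyc (M.gen C₀ s) (M.J ξ) * (y * X * y') * cyc (M.gen C₀ s) (M.J ξ) = 0 := by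
  set P := cyc (M.gen C₀ s) (M.J ξ) with hP
  have h1 := h.Q₁_mul_cyc
  have h2 : P * M.Q₁ ξ C₀ s = P := by
    have := congrArg star h1
    rwa [star_mul, h.Q₁_star, cyc_eq_spanProj, star_spanProj, ← cyc_eq_spanProj] at this
  calc P * (y * X * y') * P = (P * y) * X * (y' * P) := by simp only [mul_assoc]
    _ = (y * P) * X * (P * y') := by rw [← cyc_comm _ _ hy, cyc_comm _ _ hy']
    _ = y * ((P * M.Q₁ ξ C₀ s) * X * (M.Q₁ ξ C₀ s * P)) * y' := by
        rw [h1, h2, ← hP]; simp only [mul_assoc]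
    _ = y * (P * (M.Q₁ ξ C₀ s * X * M.Q₁ ξ C₀ s) * P) * y' := by simp only [mul_assoc]
    _ = 0 := by rw [h.word_corner hX]; simp

/-- Separation: the cyclic projection of the member is faithful on it. -/
lemma Model.Ctx.eq_zero_of_mul_cyc {b : Op M.H} (hb : b ∈ M.gen C₀ s)
    (hbP : b * cyc (M.gen C₀ s) (M.J ξ) = 0) : b = 0 := by
  set S : Set M.H := {v | ∃ c ∈ C₀, ∃ f l, f.1 ∈ s ∧ M.ι c (M.c f l) = v} with hS
  set W' : Op M.H := 1 - spanProj S with hW'
  have hcommS : ∀ c ∈ C₀, M.ι c * spanProj S = spanProj S * M.ι c := by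
    intro c hc
    refine spanProj_comm _ ?_ ?_ <;> rintro v ⟨c', hc', f, l, hf, rfl⟩
    · exact subset_clSpan ⟨c * c', mul_mem hc hc', f, l, hf, by rw [map_mul]; rfl⟩
    · rw [← map_star]
      exact subset_clSpan
        ⟨star c * c', mul_mem (star_mem hc) hc', f, l, hf, by rw [map_mul]; rfl⟩
  have hkill : ∀ f : d.E × Bool, f.1 ∈ s → W' * M.c f = 0 := by
    intro f hf
    ext v
    show M.c f v - spanProj S (M.c f v) = 0
    rw [spanProj_self (subset_clSpan (S := S) ⟨1, one_mem _, f, v, hf, by simp⟩), sub_self]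
  have hJS : ∀ x, spanProj S (M.J x) = 0 := fun x => by
    refine spanProj_zero ?_
    rintro w ⟨c, -, f, l, -, rfl⟩
    rw [← adjoint_inner_right, ← star_eq_adjoint, ← map_star, M.comm, ← adjoint_inner_right,
      ← star_eq_adjoint, M.c_star_J, inner_zero_right]
  have hW's : star W' = W' := by rw [hW', star_sub, star_one, star_spanProj]
  have hW'i : W' * W' = W' := by
    rw [hW', sub_mul, one_mul, mul_sub, mul_one, spanProj_idem, sub_self, sub_zero]
  have hW'c : ∀ c ∈ C₀, W' * M.ι c = M.ι c * W' := fun c hc => by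
    rw [hW', mul_sub, sub_mul, mul_one, one_mul, hcommS c hc]
  -- `b` kills all translates of the range of `W'`
  have hbW : ∀ y ∈ M.gen C₀ s, b * y * W' = 0 := by
    intro y hy
    set z := star (b * y) * (b * y) with hz
    have hzC : z ∈ M.gen C₀ s := mul_mem (star_mem (mul_mem hb hy)) (mul_mem hb hy)
    have hzP : z * cyc (M.gen C₀ s) (M.J ξ) = 0 := by
      rw [hz, mul_assoc, mul_assoc b, cyc_comm _ _ hy, ← mul_assoc b, hbP, zero_mul, mul_zero]
    have hV : M.down z = 0 := by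
      refine h.comp.inj _ (h.down_mem hzC) (mul_cyc_eq_zero fun c hc => ?_)
      rw [M.down_apply, ← M.comm, ← cyc_fix (M.gen C₀ s) (M.J ξ) (M.ι_mem_gen hc s),
        ← mul_apply_eq_comp z, hzP]
      simp
    have h0 := Model.compress_gen h.ok h.comp.le h.closed h.r_mem hW's hW'i hW'c hkill hzC
    rw [hV, map_zero, zero_mul] at h0
    rw [← CStarRing.star_mul_self_eq_zero_iff, ← h0, hz, star_mul (b * y) W', hW's]
    simp only [mul_assoc]
  -- translates of the range of `W'` span the whole space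
  set N : Submodule ℂ M.H :=
    clSpan {v | ∃ y ∈ M.gen C₀ s, ∃ w, y (W' w) = v} with hN
  have hW'N : ∀ w, W' w ∈ N := fun w => subset_clSpan ⟨1, one_mem _, w, rfl⟩
  have hCN : ∀ y ∈ M.gen C₀ s, ∀ v ∈ N, y v ∈ N := by
    intro y hy v hv
    refine mapsTo_clSpan y ?_ hv
    rintro u ⟨y', hy', w, rfl⟩
    exact subset_clSpan ⟨y * y', mul_mem hy hy', w, rfl⟩
  have hlev : ∀ k v, M.lev k v = v → v ∈ N := by
    intro k
    induction k with
    | zero =>
      intro v hv
      obtain ⟨x, rfl⟩ := (M.lev_zero v).1 hv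
      have : W' (M.J x) = M.J x := by
        show M.J x - spanProj S (M.J x) = _
        rw [hJS, sub_zero]
      exact this ▸ hW'N _
    | succ k ih =>
      intro v hv
      have hc : ∀ f : d.E × Bool, f.1 ∈ s → ∀ m, M.lev k m = m → M.c f m ∈ N := by
        intro f hf m hm
        set m' := m - M.c (StepData.bar f) (star (M.c (StepData.bar f)) m) with hm'
        have hm'k : M.lev k m' = m' := by
          rw [hm', map_sub, hm]
          congr 1
          cases k with
          | zero =>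
            have e0 : star (M.c (StepData.bar f)) * M.lev 0 = 0 := by
              have := congrArg star (M.lev_zero_mul_c (StepData.bar f))
              rwa [star_mul, star_zero, M.lev_star] at this
            have e1 : star (M.c (StepData.bar f)) m = 0 := by
              rw [← hm, ← mul_apply_eq_comp, e0]; rfl
            rw [e1, map_zero, map_zero]
          | succ j =>
            have e2 : star (M.c (StepData.bar f)) * M.lev (j + 1) =
                M.lev j * star (M.c (StepData.bar f)) := by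
              have := congrArg star (M.lev_succ j (StepData.bar f))
              rwa [star_mul, star_mul, M.lev_star, M.lev_star] at this
            rw [← mul_apply_eq_comp, M.lev_succ, mul_apply_eq_comp, ← mul_apply_eq_comp (M.lev j),
              ← e2, mul_apply_eq_comp, hm]
        have hU : M.U f m' = M.c f m := by
          have e1 : star (M.c (StepData.bar f)) m' = 0 := by
            have := congrArg star (M.pisom (StepData.bar f))
            rw [star_mul, star_mul, star_star] at this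
            rw [hm', map_sub]
            show _ - (star (M.c (StepData.bar f)) * M.c (StepData.bar f) *
              star (M.c (StepData.bar f))) m = 0
            rw [mul_assoc, this, sub_self]
          have e2 : M.c f m' = M.c f m := by
            have e3 : M.c f * M.c (StepData.bar f) = 0 := by
              simpa using M.c_bar_mul (StepData.bar f)
            rw [hm', map_sub, ← mul_apply_eq_comp (M.c f), e3]
            simp
          show M.c f m' + star (M.c (StepData.bar f)) m' = _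
          rw [e1, e2, add_zero]
        rw [← hU]
        exact hCN _ (M.U_mem_gen _ hf) _ (ih m' hm'k)
      have hB : spanProj S v ∈ N := by
        have hSlev : ∀ u ∈ S, M.lev (k + 1) u ∈ N := by
          rintro u ⟨c, hc', f, l, hf, rfl⟩
          rw [← mul_apply_eq_comp, M.lev_comm, mul_apply_eq_comp, ← mul_apply_eq_comp (M.lev _),
            M.lev_succ]
          exact hCN _ (M.ι_mem_gen hc' s) _
            (hc f hf _ (congrArg (fun R : Op M.H => R l) (M.lev_idem k)))
        have hSS : ∀ u ∈ S, M.lev (k + 1) u ∈ clSpan S := by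
          rintro u ⟨c, hc', f, l, hf, rfl⟩
          rw [← mul_apply_eq_comp, M.lev_comm, mul_apply_eq_comp, ← mul_apply_eq_comp (M.lev _),
            M.lev_succ]
          exact subset_clSpan ⟨c, hc', f, _, hf, rfl⟩
        have hcomm := spanProj_comm (M.lev (k + 1)) hSS (by rw [M.lev_star]; exact hSS)
        have e : spanProj S v = M.lev (k + 1) (spanProj S v) := by
          conv_lhs => rw [← hv]
          exact (congrArg (fun R : Op M.H => R v) hcomm).symm
        rw [e]
        have h2 : clSpan S ≤ N.comap (M.lev (k + 1)).toLinearMap :=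
          clSpan_le ((Submodule.isClosed_topologicalClosure _).preimage (M.lev (k + 1)).continuous)
            hSlev
        exact h2 (spanProj_mem S v)
      have e : v = W' v + spanProj S v := by
        show v = v - spanProj S v + spanProj S v
        rw [sub_add_cancel]
      rw [e]
      exact add_mem (hW'N v) hB
  -- conclude
  have hbN : ∀ v ∈ N, b v = 0 := by
    have h2 : N ≤ b.toLinearMap.ker := clSpan_le (ContinuousLinearMap.isClosed_ker b) (by
      rintro u ⟨y, hy, w, rfl⟩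
      show b (y (W' w)) = 0
      exact congrArg (fun R : Op M.H => R w) (hbW y hy))
    exact fun v hv => h2 hv
  have hperp : ∀ v, spanProj {v | ∃ y ∈ M.gen C₀ s, ∃ w, y (W' w) = v} v = v := fun v => by
    refine sub_eq_zero.1 (M.lev_total _ fun k => ?_)
    refine (inner_self_eq_zero (𝕜 := ℂ)).1 ?_
    set u := spanProj {v | ∃ y ∈ M.gen C₀ s, ∃ w, y (W' w) = v} v - v with hu
    have hk : M.lev k (M.lev k u) = M.lev k u :=
      congrArg (fun R : Op M.H => R u) (M.lev_idem k)
    have hmem : M.lev k u ∈ N := hlev k _ hk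
    rw [inner_apply_left (M.lev_star k), hk, show u = -(v - spanProj
      {v | ∃ y ∈ M.gen C₀ s, ∃ w, y (W' w) = v} v) from (neg_sub _ _).symm, inner_neg_left]
    refine neg_eq_zero.2 (Submodule.starProjection_inner_eq_zero v _ ?_)
    rwa [neg_sub]
  ext v
  exact hperp v ▸ hbN _ (spanProj_mem _ v)

end Vale.Agent.P070.Club
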