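import Vale.Agent.P070.Club.StepGood.Proj

/-!
# Closed algebras generated in one step: monotonicity, separability, countable support
-/

universe u

namespace Vale.Agent.P070.Club

open TopologicalSpace

section Generic

variable {B : Type u} [CStarAlgebra B]

/-- An element of the closed algebra of `G` only needs countably many generators. -/
lemma exists_countable_generators {G : Set B} {x : B}
    (hx : x ∈ (StarAlgebra.adjoin ℂ G).topologicalClosure) :
    ∃ G₀ ⊆ G, G₀.Countable ∧ x ∈ (StarAlgebra.adjoin ℂ G₀).topologicalClosure := by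
  have key : ∀ y ∈ StarAlgebra.adjoin ℂ G,
      ∃ G₀ ⊆ G, G₀.Countable ∧ y ∈ StarAlgebra.adjoin ℂ G₀ := by
    intro y hy
    induction hy using StarAlgebra.adjoin_induction with
    | mem z hz =>
      exact ⟨{z}, by simpa using hz, Set.countable_singleton z,
        StarAlgebra.subset_adjoin ℂ _ rfl⟩
    | algebraMap r => exact ⟨∅, Set.empty_subset _, Set.countable_empty, algebraMap_mem _ r⟩
    | add a b _ _ iha ihb =>
      obtain ⟨Ga, hGa, hca, ha⟩ := iha
      obtain ⟨Gb, hGb, hcb, hb⟩ := ihb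
      exact ⟨Ga ∪ Gb, Set.union_subset hGa hGb, hca.union hcb,
        add_mem (StarAlgebra.adjoin_le
          (Set.subset_union_left.trans (StarAlgebra.subset_adjoin ℂ _)) ha)
          (StarAlgebra.adjoin_le
          (Set.subset_union_right.trans (StarAlgebra.subset_adjoin ℂ _)) hb)⟩
    | mul a b _ _ iha ihb =>
      obtain ⟨Ga, hGa, hca, ha⟩ := iha
      obtain ⟨Gb, hGb, hcb, hb⟩ := ihb
      exact ⟨Ga ∪ Gb, Set.union_subset hGa hGb, hca.union hcb,
        mul_mem (StarAlgebra.adjoin_le
          (Set.subset_union_left.trans (StarAlgebra.subset_adjoin ℂ _)) ha)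
          (StarAlgebra.adjoin_le
          (Set.subset_union_right.trans (StarAlgebra.subset_adjoin ℂ _)) hb)⟩
    | star a _ ih =>
      obtain ⟨Ga, hGa, hca, ha⟩ := ih
      exact ⟨Ga, hGa, hca, star_mem ha⟩
  rw [← SetLike.mem_coe, StarSubalgebra.topologicalClosure_coe,
    mem_closure_iff_seq_limit] at hx
  obtain ⟨a, ha, hlim⟩ := hx
  choose Gk hGk hck hak using fun k => key (a k) (ha k)
  refine ⟨⋃ k, Gk k, Set.iUnion_subset hGk, Set.countable_iUnion hck, ?_⟩
  rw [← SetLike.mem_coe, StarSubalgebra.topologicalClosure_coe, mem_closure_iff_seq_limit]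
  exact ⟨a, fun k => StarAlgebra.adjoin_le
    ((Set.subset_iUnion Gk k).trans (StarAlgebra.subset_adjoin ℂ _)) (hak k), hlim⟩

/-- Closed algebras with separable generators are separable. -/
lemma isSeparable_adjoin {G : Set B} (hG : IsSeparable G) :
    IsSeparable ((StarAlgebra.adjoin ℂ G).topologicalClosure : Set B) := by
  obtain ⟨D, hD, hGD⟩ := hG
  set S := (StarAlgebra.adjoin ℂ D).topologicalClosure with hS
  have hDsep : IsSeparable ((StarAlgebra.adjoin ℂ D : StarSubalgebra ℂ B) : Set B) := by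
    have hcount : ((Submonoid.closure (D ∪ star D) : Submonoid B) : Set B).Countable := by
      have : Countable (D ∪ star D : Set B) :=
        (hD.union (hD.preimage star_injective)).to_subtype
      rw [Submonoid.closure_eq_image_prod]
      refine Set.Countable.mono ?_ (Set.countable_range
        fun l : List (D ∪ star D : Set B) => (l.map Subtype.val).prod)
      rintro x ⟨l, hl, rfl⟩
      exact ⟨l.attach.map fun y => ⟨y.1, hl y.1 y.2⟩, by simp [Function.comp_def]⟩
    have h : (StarAlgebra.adjoin ℂ D : Set B) =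
        (Submodule.span ℂ (Submonoid.closure (D ∪ star D) : Set B) : Set B) := by
      rw [← StarAlgebra.adjoin_eq_span]
      rfl
    rw [h]
    exact hcount.isSeparable.span
  have hle : (StarAlgebra.adjoin ℂ G).topologicalClosure ≤ S :=
    StarSubalgebra.topologicalClosure_minimal
      (StarAlgebra.adjoin_le (hGD.trans (closure_mono (StarAlgebra.subset_adjoin ℂ D))))
      (StarSubalgebra.isClosed_topologicalClosure _)
  refine IsSeparable.mono ?_ (SetLike.coe_subset_coe.2 hle)
  rw [hS, StarSubalgebra.topologicalClosure_coe]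
  exact hDsep.closure

end Generic

section Model

variable {K : Type} [NormedAddCommGroup K] [InnerProductSpace ℂ K] [CompleteSpace K]
  {d : StepData K} (M : Model d) {C₀ C₁ : StarSubalgebra ℂ (Op K)} {s t : Set d.E}

lemma Model.isClosed_gen (C₀ : StarSubalgebra ℂ (Op K)) (s : Set d.E) :
    IsClosed (M.gen C₀ s : Set (Op M.H)) :=
  StarSubalgebra.isClosed_topologicalClosure _

lemma Model.gens_subset (C₀ : StarSubalgebra ℂ (Op K)) (s : Set d.E) :
    M.ι '' C₀ ∪ M.U '' {f | f.1 ∈ s} ⊆ M.gen C₀ s :=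
  fun _ hx => StarSubalgebra.le_topologicalClosure _ (StarAlgebra.subset_adjoin ℂ _ hx)

lemma Model.ι_mem_gen {c : Op K} (hc : c ∈ C₀) (s : Set d.E) : M.ι c ∈ M.gen C₀ s :=
  M.gens_subset C₀ s (Or.inl ⟨c, hc, rfl⟩)

lemma Model.U_mem_gen (C₀ : StarSubalgebra ℂ (Op K)) {f : d.E × Bool} (hf : f.1 ∈ s) :
    M.U f ∈ M.gen C₀ s :=
  M.gens_subset C₀ s (Or.inr ⟨f, hf, rfl⟩)

lemma Model.gen_mono (hC : C₀ ≤ C₁) (hs : s ⊆ t) : M.gen C₀ s ≤ M.gen C₁ t :=
  StarSubalgebra.topologicalClosure_minimal (StarAlgebra.adjoin_le (by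
    rintro _ (⟨c, hc, rfl⟩ | ⟨f, hf, rfl⟩)
    · exact M.ι_mem_gen (hC hc) t
    · exact M.U_mem_gen C₁ (hs hf))) (M.isClosed_gen _ _)

lemma Model.isSeparable_gen (hC : IsSeparable (C₀ : Set (Op K))) (hs : s.Countable) :
    IsSeparable (M.gen C₀ s : Set (Op M.H)) := by
  refine isSeparable_adjoin ((hC.image M.isometry_ι.continuous).union ?_)
  have h : {f : d.E × Bool | f.1 ∈ s}.Countable :=
    Set.Countable.mono (fun f hf => Set.mk_mem_prod hf (Set.mem_univ f.2))
      (hs.prod (Set.to_countable (Set.univ : Set Bool)))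
  exact (h.image M.U).isSeparable

lemma Model.isClosed_map (hC : IsClosed (C₀ : Set (Op K))) :
    IsClosed (C₀.map M.ι : Set (Op M.H)) := by
  rw [StarSubalgebra.coe_map]
  exact M.isometry_ι.isClosedEmbedding.isClosedMap _ hC

lemma Model.gen_empty (hC : IsClosed (C₀ : Set (Op K))) : M.gen C₀ ∅ = C₀.map M.ι := by
  refine le_antisymm (StarSubalgebra.topologicalClosure_minimal (StarAlgebra.adjoin_le ?_)
    (M.isClosed_map hC)) ?_
  · rintro _ (⟨c, hc, rfl⟩ | ⟨f, hf, rfl⟩)
    · exact ⟨c, hc, rfl⟩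
    · exact absurd hf (Set.notMem_empty f.1)
  · rintro _ ⟨c, hc, rfl⟩
    exact M.ι_mem_gen hc ∅

end Model

end Vale.Agent.P070.Club
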