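import Vale.Agent.P070.Club.Excise

/-!
# Pure infiniteness from an excised fixed vector and separation
-/

universe u

namespace Vale.Agent.P070.Club

open Filter Topology ComplexOrder
open scoped InnerProductSpace

variable {H : Type u} [NormedAddCommGroup H] [InnerProductSpace ℂ H] [CompleteSpace H]

/-- An algebra separated by the orbit of a unit vector is purely infinite, when the vector is fixed
by an excised sequence whose members are properly infinite in the algebra. -/
theorem isPI_of_orbit {C : StarSubalgebra ℂ (Op H)} [IsClosed (C : Set (Op H))] {p : ℕ → Op H}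
    (hp : Excised C p) {ξ : H} (hξ : ‖ξ‖ = 1) (hfix : ∀ n, p n ξ = ξ)
    (hsep : ∀ b ∈ C, b ≠ 0 → ∃ y ∈ C, b (y ξ) ≠ 0)
    (hiso : ∀ n, ∃ v ∈ C, star v * p n * v = 1) : IsPI C := by
  obtain ⟨χ, hχ⟩ := hp
  intro a ha ha0
  obtain ⟨y, hy, hay⟩ := hsep a ha ha0
  set T : Op H := star (a * y) * (a * y) with hT
  have hTC : T ∈ C := mul_mem (star_mem (mul_mem ha hy)) (mul_mem ha hy)
  set α : ℝ := ‖a (y ξ)‖ ^ 2 with hα
  have hα0 : 0 < α := by positivity
  have hTα : χ T = (α : ℂ) := by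
    rw [← hχ.eq_of_fixed hξ hfix hTC, hT, mul_apply_eq_comp, ← inner_star_apply, star_star,
      inner_self_eq_norm_sq_to_K, hα]
    norm_cast
  obtain ⟨n, hn⟩ := ((hχ.2 T hTC).eventually (gt_mem_nhds hα0)).exists
  obtain ⟨v, hv, hv1⟩ := hiso n
  set w := p n * v with hw
  have hwC : w ∈ C := mul_mem (hχ.1.mem n) hv
  have hw1 : star w * w = 1 := by
    rw [hw, star_mul, hχ.1.star_eq, mul_assoc, ← mul_assoc (p n), hχ.1.idem, ← mul_assoc]
    exact hv1
  have hpw : p n * w = w := by rw [hw, ← mul_assoc, hχ.1.idem]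
  have hwn : ‖w‖ ≤ 1 := by
    have h1 : ‖w‖ * ‖w‖ = ‖(1 : Op H)‖ := by rw [← CStarRing.norm_star_mul_self, hw1]
    have h2 : ‖(1 : Op H)‖ ≤ 1 := ContinuousLinearMap.norm_id_le
    nlinarith [norm_nonneg w]
  have hwp : star w * p n = star w := by
    have := congrArg star hpw
    rwa [star_mul, hχ.1.star_eq] at this
  have hclose : ‖star (a * y * w) * (a * y * w) - (α : ℂ) • (1 : Op H)‖ < α := by
    have e : star (a * y * w) * (a * y * w) - (α : ℂ) • (1 : Op H) =
        star w * (p n * T * p n - χ T • p n) * w := by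
      rw [mul_sub, sub_mul, mul_smul_comm, smul_mul_assoc, hwp, hw1, hTα]
      congr 1
      rw [← mul_assoc (star w), ← mul_assoc (star w), hwp, mul_assoc (star w * T), hpw, hT, star_mul (a * y) w]
      simp only [mul_assoc]
    rw [e]
    refine lt_of_le_of_lt ((norm_mul_le _ _).trans ?_) hn
    refine (mul_le_mul_of_nonneg_right (norm_mul_le _ _) (norm_nonneg _)).trans ?_
    rw [norm_star]
    calc ‖w‖ * ‖p n * T * p n - χ T • p n‖ * ‖w‖
        ≤ 1 * ‖p n * T * p n - χ T • p n‖ * 1 := by gcongr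
      _ = _ := by ring
  let _ := CStarAlgebra.spectralOrder C
  have := CStarAlgebra.spectralOrderedRing C
  set X : C := ⟨a * y * w, mul_mem (mul_mem ha hy) hwC⟩ with hX
  have hS0 := star_mul_self_nonneg X
  have hSu : IsUnit (star X * X) := by
    have hn' : ‖((α : ℂ)⁻¹) • ((α : ℂ) • (1 : C) - star X * X)‖ < 1 := by
      rw [norm_smul, norm_inv, Complex.norm_real, Real.norm_of_nonneg hα0.le,
        inv_mul_lt_iff₀ hα0, mul_one, norm_sub_rev]
      exact hclose
    have hu := (Units.oneSub _ hn').isUnit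
    rw [Units.val_oneSub, smul_sub, inv_smul_smul₀ (by simp [hα0.ne']), sub_sub_cancel] at hu
    have h2 := hu.smul (Units.mk0 (α : ℂ) (by simp [hα0.ne']))
    rwa [Units.smul_def, Units.val_mk0, smul_inv_smul₀ (by simp [hα0.ne'])] at h2
  obtain ⟨u, hu⟩ := (CFC.isUnit_sqrt_iff (star X * X) hS0).2 hSu
  have hsq : (u : C) * u = star X * X := by rw [hu]; exact CFC.sqrt_mul_sqrt_self _ hS0
  have hus : star (↑u⁻¹ : C) = ↑u⁻¹ := by
    have h1 : IsSelfAdjoint (u : C) := hu ▸ IsSelfAdjoint.of_nonneg (CFC.sqrt_nonneg _)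
    rw [← Units.coe_star, star_inv]
    congr 1
    simp [Units.ext_iff, h1.star_eq]
  have key : star (↑u⁻¹ : C) * (star X * X) * ↑u⁻¹ = 1 := by
    rw [← hsq, hus, ← mul_assoc, Units.inv_mul, one_mul, Units.mul_inv]
  refine ⟨y * w * ((↑u⁻¹ : C) : Op H), mul_mem (mul_mem hy hwC) (↑u⁻¹ : C).2, ?_⟩
  have key' := congrArg (Subtype.val : C → Op H) key
  simp only [MulMemClass.coe_mul, StarMemClass.coe_star, OneMemClass.coe_one, hX] at key'
  refine Eq.trans ?_ key'
  simp only [star_mul, mul_assoc]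

end Vale.Agent.P070.Club
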