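import Vale.Agent.P070.Club.StepGood.Decomp
import Vale.Agent.P070.Club.StepGood.PI
import Vale.Agent.P070.Club.Goals

/-!
# A member of the club of the next node satisfies its requirements
-/

namespace Vale.Agent.P070.Club

open Filter Topology TopologicalSpace

variable {K : Type} [NormedAddCommGroup K] [InnerProductSpace ℂ K] [CompleteSpace K]
  {d : StepData K} (M : Model d)

lemma Model.isPI_map {C : StarSubalgebra ℂ (Op K)} (hC : IsPI C) : IsPI (C.map M.ι) := by
  rintro _ ⟨a, ha, rfl⟩ h0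
  obtain ⟨x, hx, hx1⟩ := hC a ha (fun h => h0 ((congrArg M.ι h).trans (map_zero M.ι)))
  refine ⟨M.ι x, ⟨x, hx, rfl⟩, ?_⟩
  show star (M.ι x) * (star (M.ι a) * M.ι a) * M.ι x = 1
  simp only [← map_star, ← map_mul, hx1, map_one]

lemma Model.exists_preimage {C : StarSubalgebra ℂ (Op K)} {p : ℕ → Op M.H}
    (hp : Excised (C.map M.ι) p) : ∃ q, Excised C q ∧ p = fun n => M.ι (q n) := by
  obtain ⟨χ, hs, hl⟩ := hp
  choose q hq hqp using hs.mem
  have hqp' : ∀ n, M.ι (q n) = p n := hqp
  refine ⟨q, ⟨fun x => χ (M.ι x), ⟨hq, fun n => M.ι_injective ?_, M.ι_injective ?_,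
    fun m n h => M.ι_injective ?_, fun n h => hs.ne_zero n ?_⟩, fun x hx => ?_⟩,
    funext fun n => (hqp' n).symm⟩
  · rw [map_star, hqp', hs.star_eq]
  · rw [map_one, hqp', hs.zero_eq]
  · rw [map_mul, hqp', hqp', hs.mul_eq m n h]
  · rw [← hqp', h, map_zero]
  · refine (hl (M.ι x) ⟨x, hx, rfl⟩).congr fun n => ?_
    rw [← M.norm_ι (q n * x * q n - χ (M.ι x) • q n), map_sub, map_smul, map_mul, map_mul, hqp']

variable {M} {ξ : K} {C₀ : StarSubalgebra ℂ (Op K)} {s : Set d.E}

lemma Model.Ctx.compresses_W (h : M.Ctx ξ C₀ s) :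
    Compresses (M.W ξ C₀ s) (C₀.map M.ι) (M.gen C₀ s) where
  star_eq := h.W_star
  idem := h.W_idem
  le := by rintro _ ⟨c, hc, rfl⟩; exact M.ι_mem_gen hc s
  comm := by rintro _ ⟨c, hc, rfl⟩; exact h.W_ιC hc
  inj := by
    rintro _ ⟨c, hc, rfl⟩ h0
    refine (congrArg M.ι (ContinuousLinearMap.ext fun x => M.J.injective ?_)).trans (map_zero M.ι)
    have h1 := congrArg (fun R : Op M.H => R (M.J x)) h0
    simp only [mul_apply_eq_comp, h.W_J, zero_apply] at h1
    show M.J (c x) = M.J 0
    rw [map_zero, ← M.comm]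
    exact h1
  compress := fun y hy =>
    ⟨M.ι (M.down y), ⟨M.down y, h.down_mem hy, rfl⟩, h.compress_W hy⟩

lemma Model.Ctx.gen_le (h : M.Ctx ξ C₀ s) : M.gen C₀ s ≤ M.gen d.A Set.univ :=
  M.gen_mono h.comp.le (Set.subset_univ s)

/-- The cyclic projection of the member compresses the whole algebra into it. -/
lemma Model.Ctx.compress_cyc (h : M.Ctx ξ C₀ s) {z : Op M.H} (hz : z ∈ M.gen d.A Set.univ) :
    ∃ c ∈ M.gen C₀ s,
      cyc (M.gen C₀ s) (M.J ξ) * z * cyc (M.gen C₀ s) (M.J ξ) = c * cyc (M.gen C₀ s) (M.J ξ) := by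
  set C := M.gen C₀ s with hC
  set P := cyc C (M.J ξ) with hP
  have : IsClosed (C : Set (Op M.H)) := M.isClosed_gen C₀ s
  have hPP : P * P = P := spanProj_idem _
  let φ : C →⋆ₙₐ[ℂ] Op M.H :=
    { toFun := fun c => (c : Op M.H) * P
      map_smul' := fun a c => by simp
      map_zero' := by simp
      map_add' := fun a b => by simp [add_mul]
      map_mul' := fun a b => by
        show (a : Op M.H) * b * P = (a : Op M.H) * P * ((b : Op M.H) * P)
        rw [mul_assoc (a : Op M.H) P, ← mul_assoc P, ← cyc_comm C _ b.2, mul_assoc (b : Op M.H),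
          hPP, ← mul_assoc]
      map_star' := fun a => by
        show star (a : Op M.H) * P = star ((a : Op M.H) * P)
        rw [star_mul, show star P = P from star_spanProj _, cyc_comm C _ (star_mem a.2)] }
  have hφ : Function.Injective φ := fun a b hab => by
    refine Subtype.ext (sub_eq_zero.1 (h.eq_zero_of_mul_cyc (sub_mem a.2 b.2) ?_))
    rw [sub_mul]
    exact sub_eq_zero.2 hab
  have hiso : Isometry φ := AddMonoidHomClass.isometry_of_norm φ fun c =>
    NonUnitalStarAlgHom.norm_map φ hφ c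
  have hclosed : IsClosed {z : Op M.H | P * z * P ∈ Set.range φ} :=
    hiso.isClosedEmbedding.isClosed_range.preimage
      ((continuous_const.mul continuous_id).mul continuous_const)
  have hLmem : ∀ x ∈ M.L ξ C₀ s, P * x * P ∈ Set.range φ := by
    intro x hx
    induction hx using Submodule.span_induction with
    | mem w hw =>
      rcases hw with hw | ⟨y, hy, X, hX, y', hy', rfl⟩
      · exact ⟨⟨w, hw⟩, by show w * P = _; rw [← cyc_comm C _ hw, mul_assoc, hPP]⟩
      · exact ⟨0, by rw [map_zero, h.cyc_word hy hX hy']⟩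
    | zero => exact ⟨0, by simp⟩
    | add a b _ _ iha ihb =>
      obtain ⟨ca, ha⟩ := iha
      obtain ⟨cb, hb⟩ := ihb
      exact ⟨ca + cb, by rw [map_add, ha, hb, mul_add, add_mul]⟩
    | smul r a _ iha =>
      obtain ⟨ca, ha⟩ := iha
      exact ⟨r • ca, by rw [map_smul, ha, mul_smul_comm, smul_mul_assoc]⟩
  obtain ⟨c, hc⟩ :=
    closure_minimal (fun x hx => hLmem x (h.adjoin_le_L hx)) hclosed hz
  exact ⟨c, c.2, hc.symm⟩

/-- Sequences excised in the member stay excised in the whole algebra. -/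
lemma Model.Ctx.excised (h : M.Ctx ξ C₀ s) (hdich : DichotomyGoal.{0})
    (hsep : IsSeparable (C₀ : Set (Op K))) (hPI : IsPI C₀)
    (hstay : ∀ q, Excised C₀ q → Excised (M.gen d.A Set.univ) fun n => M.ι (q n))
    {p : ℕ → Op M.H} (hp : Excised (M.gen C₀ s) p) : Excised (M.gen d.A Set.univ) p := by
  have hps : ProjSeq (M.gen C₀ s) p := hp.projSeq
  have hps' : ProjSeq (M.gen d.A Set.univ) p := hps.mono fun n => h.gen_le (hps.mem n)
  rcases hdich M.H (M.W ξ C₀ s) _ _ h.compresses_W (M.isClosed_map h.closed)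
    (by rw [StarSubalgebra.coe_map]; exact hsep.image M.isometry_ι.continuous) (M.isPI_map hPI)
    p hp with hW | ⟨q, hq, hne⟩
  · obtain ⟨χ, hχ⟩ := hp
    refine excised_of_dense hps'
      (StarAlgebra.adjoin ℂ (M.ι '' d.A ∪ M.U '' {f | f.1 ∈ Set.univ}) : Set (Op M.H))
      (fun _ hz => hz) fun x hx ε hε => ?_
    have key : ∀ x ∈ M.L ξ C₀ s,
        ∃ l : ℂ, Tendsto (fun n => ‖p n * x * p n - l • p n‖) atTop (𝓝 0) := by
      intro x hx
      induction hx using Submodule.span_induction with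
      | mem w hw =>
        rcases hw with hw | ⟨y, hy, X, hX, y', hy', rfl⟩
        · exact ⟨χ w, hχ.2 w hw⟩
        refine ⟨0, ?_⟩
        simp only [zero_smul, sub_zero]
        have hQXQ : M.Q ξ C₀ s * X * M.Q ξ C₀ s = 0 := by
          calc M.Q ξ C₀ s * X * M.Q ξ C₀ s
              = M.Q ξ C₀ s * M.Q₁ ξ C₀ s * X * (M.Q₁ ξ C₀ s * M.Q ξ C₀ s) := by
                rw [h.Q_mul_Q₁, h.Q₁_mul_Q]
            _ = M.Q ξ C₀ s * (M.Q₁ ξ C₀ s * X * M.Q₁ ξ C₀ s) * M.Q ξ C₀ s := by
                simp only [mul_assoc]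
            _ = 0 := by rw [h.word_corner hX, mul_zero, zero_mul]
        have hX' : X = M.W ξ C₀ s * X + M.Q ξ C₀ s * X * M.W ξ C₀ s := by
          simp only [Model.W, mul_sub, sub_mul, mul_one, one_mul, hQXQ]
          abel
        have hb : ∀ n, ‖p n * (y * X * y') * p n‖ ≤
            ‖M.W ξ C₀ s * star y * p n‖ * (‖X‖ * ‖y'‖) +
              ‖y * (M.Q ξ C₀ s * X)‖ * ‖M.W ξ C₀ s * y' * p n‖ := by
          intro n
          have e : p n * (y * X * y') * p n =
              (p n * y * M.W ξ C₀ s) * (X * y' * p n) +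
                p n * (y * (M.Q ξ C₀ s * X)) * (M.W ξ C₀ s * y' * p n) := by
            conv_lhs => rw [hX']
            noncomm_ring
          rw [e]
          refine (norm_add_le _ _).trans (add_le_add ?_ ?_)
          · refine (norm_mul_le _ _).trans (mul_le_mul ?_ ?_ (norm_nonneg _) (norm_nonneg _))
            · rw [← norm_star]
              simp only [star_mul, h.W_star, hps.star_eq, ← mul_assoc]
              exact le_rfl
            · refine (norm_mul_le _ _).trans ?_
              rw [hps.norm_eq, mul_one]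
              exact norm_mul_le _ _
          · refine (norm_mul_le _ _).trans (mul_le_mul_of_nonneg_right ?_ (norm_nonneg _))
            refine (norm_mul_le _ _).trans ?_
            rw [hps.norm_eq, one_mul]
        refine squeeze_zero (fun _ => norm_nonneg _) hb ?_
        simpa using ((hW (star y) (star_mem hy)).mul_const (‖X‖ * ‖y'‖)).add
          ((hW y' hy').const_mul ‖y * (M.Q ξ C₀ s * X)‖)
      | zero => exact ⟨0, by simp⟩
      | add a b _ _ iha ihb =>
        obtain ⟨la, ha⟩ := iha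
        obtain ⟨lb, hb⟩ := ihb
        refine ⟨la + lb, squeeze_zero (fun _ => norm_nonneg _) (fun n => ?_)
          (by simpa using ha.add hb)⟩
        rw [mul_add, add_mul, add_smul, add_sub_add_comm]
        exact norm_add_le _ _
      | smul r a _ iha =>
        obtain ⟨la, ha⟩ := iha
        refine ⟨r * la, ?_⟩
        simpa [mul_smul_comm, smul_mul_assoc, mul_smul, ← smul_sub, norm_smul] using
          ha.const_mul ‖r‖
    obtain ⟨l, hl⟩ := key x (h.adjoin_le_L hx)
    obtain ⟨n, hn⟩ := (hl.eventually (gt_mem_nhds hε)).exists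
    exact ⟨n, l, hn.le⟩
  · obtain ⟨q', hq', rfl⟩ := M.exists_preimage hq
    have hqA := hstay q' hq'
    exact Excised.transfer h.gen_le hqA (fun n => M.ι_mem_gen (hq'.projSeq.mem n) s) hp
      fun hi => hne (hi.symm hps' hqA.projSeq)

end Vale.Agent.P070.Club
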