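import Vale.Agent.P070.Club.Words

/-!
# Projections and compressions used for the goodness of a step
-/

universe u

namespace Vale.Agent.P070.Club

open ContinuousLinearMap
open scoped InnerProductSpace

set_option linter.unusedSectionVars false

section Span

variable {H : Type u} [NormedAddCommGroup H] [InnerProductSpace ℂ H] [CompleteSpace H]

/-- The closed span of a set of vectors. -/
def clSpan (S : Set H) : Submodule ℂ H := (Submodule.span ℂ S).topologicalClosure

instance (S : Set H) : CompleteSpace (clSpan S) :=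
  (Submodule.isClosed_topologicalClosure _).completeSpace_coe

/-- The projection onto the closed span of a set of vectors. -/
noncomputable def spanProj (S : Set H) : Op H := (clSpan S).starProjection

lemma subset_clSpan {S : Set H} {v : H} (h : v ∈ S) : v ∈ clSpan S :=
  Submodule.le_topologicalClosure _ (Submodule.subset_span h)

lemma clSpan_le {S : Set H} {M : Submodule ℂ H} (hM : IsClosed (M : Set H)) (h : S ⊆ M) :
    clSpan S ≤ M :=
  Submodule.topologicalClosure_minimal _ (Submodule.span_le.2 h) hM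

lemma spanProj_self {S : Set H} {v : H} (h : v ∈ clSpan S) : spanProj S v = v :=
  Submodule.starProjection_eq_self_iff.2 h

lemma spanProj_mem (S : Set H) (v : H) : spanProj S v ∈ clSpan S :=
  Submodule.starProjection_apply_mem _ v

lemma star_spanProj (S : Set H) : star (spanProj S) = spanProj S :=
  (isSelfAdjoint_starProjection _).star_eq

lemma spanProj_idem (S : Set H) : spanProj S * spanProj S = spanProj S :=
  (Submodule.isIdempotentElem_starProjection (K := clSpan S)).eq

lemma mapsTo_clSpan {S : Set H} (T : Op H) (h : ∀ v ∈ S, T v ∈ clSpan S) {v : H}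
    (hv : v ∈ clSpan S) : T v ∈ clSpan S := by
  have h2 : clSpan S ≤ Submodule.comap T.toLinearMap (clSpan S) :=
    clSpan_le ((Submodule.isClosed_topologicalClosure _).preimage T.continuous) h
  exact h2 hv

lemma spanProj_zero {S : Set H} {x : H} (h : ∀ v ∈ S, ⟪v, x⟫_ℂ = 0) : spanProj S x = 0 := by
  refine Submodule.eq_starProjection_of_mem_of_inner_eq_zero (clSpan S).zero_mem ?_
  intro w hw
  rw [sub_zero]
  have h2 : clSpan S ≤ (Submodule.span ℂ {x}).orthogonal :=
    clSpan_le (Submodule.isClosed_orthogonal _) fun v hv =>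
      Submodule.mem_orthogonal_singleton_iff_inner_left.2 (h v hv)
  exact inner_eq_zero_symm.1 (Submodule.mem_orthogonal_singleton_iff_inner_left.1 (h2 hw))

lemma spanProj_comm {S : Set H} (T : Op H) (h : ∀ v ∈ S, T v ∈ clSpan S)
    (h' : ∀ v ∈ S, star T v ∈ clSpan S) : T * spanProj S = spanProj S * T := by
  ext x
  show T (spanProj S x) = spanProj S (T x)
  refine (Submodule.eq_starProjection_of_mem_of_inner_eq_zero
    (mapsTo_clSpan T h (spanProj_mem S x)) fun w hw => ?_).symm
  rw [← map_sub, ← adjoint_inner_right, ← star_eq_adjoint]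
  exact Submodule.starProjection_inner_eq_zero x _ (mapsTo_clSpan _ h' hw)

lemma cyc_eq_spanProj (C : StarSubalgebra ℂ (Op H)) (ξ : H) :
    cyc C ξ = spanProj {v | ∃ c ∈ C, c ξ = v} := rfl

lemma cyc_fix (C : StarSubalgebra ℂ (Op H)) (ξ : H) {c : Op H} (hc : c ∈ C) :
    cyc C ξ (c ξ) = c ξ :=
  cyc_eq_spanProj C ξ ▸ spanProj_self (subset_clSpan ⟨c, hc, rfl⟩)

lemma cyc_fix_self (C : StarSubalgebra ℂ (Op H)) (ξ : H) : cyc C ξ ξ = ξ := by
  simpa using cyc_fix C ξ (one_mem C)

lemma cyc_comm (C : StarSubalgebra ℂ (Op H)) (ξ : H) {c : Op H} (hc : c ∈ C) :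
    c * cyc C ξ = cyc C ξ * c := by
  rw [cyc_eq_spanProj]
  refine spanProj_comm c ?_ ?_ <;> rintro v ⟨d, hd, rfl⟩
  · exact subset_clSpan ⟨c * d, mul_mem hc hd, rfl⟩
  · exact subset_clSpan ⟨star c * d, mul_mem (star_mem hc) hd, rfl⟩

/-- Operators fixing the generating vectors fix the cyclic projection. -/
lemma mul_cyc_eq {C : StarSubalgebra ℂ (Op H)} {ξ : H} {R : Op H}
    (h : ∀ c ∈ C, R (c ξ) = c ξ) : R * cyc C ξ = cyc C ξ := by
  ext x
  have h2 : clSpan {v | ∃ c ∈ C, c ξ = v} ≤ LinearMap.eqLocus R.toLinearMap LinearMap.id :=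
    clSpan_le (isClosed_eq R.continuous continuous_id) fun v ⟨c, hc, hv⟩ => hv ▸ h c hc
  exact h2 (spanProj_mem _ x)

/-- Operators killing the generating vectors kill the cyclic projection. -/
lemma mul_cyc_eq_zero {C : StarSubalgebra ℂ (Op H)} {ξ : H} {R : Op H}
    (h : ∀ c ∈ C, R (c ξ) = 0) : R * cyc C ξ = 0 := by
  ext x
  have h2 : clSpan {v | ∃ c ∈ C, c ξ = v} ≤ R.toLinearMap.ker :=
    clSpan_le (ContinuousLinearMap.isClosed_ker _) fun v ⟨c, hc, hv⟩ => hv ▸ h c hc
  exact h2 (spanProj_mem _ x)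

end Span

section Model

variable {K : Type} [NormedAddCommGroup K] [InnerProductSpace ℂ K] [CompleteSpace K]
  {d : StepData K} (M : Model d)

/-- An operator of the old space acting on its image only. -/
noncomputable def Model.jj (T : Op K) : Op M.H :=
  M.J.toContinuousLinearMap.comp (T.comp (adjoint M.J.toContinuousLinearMap))

/-- The adjoint of the inclusion of the old space. -/
noncomputable abbrev Model.Jad : M.H →L[ℂ] K := adjoint M.J.toContinuousLinearMap

lemma Model.Jad_J (x : K) : M.Jad (M.J x) = x := by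
  refine ext_inner_left ℂ fun y => ?_
  rw [adjoint_inner_right]
  exact M.J.inner_map_map y x

lemma Model.down_apply (T : Op M.H) (x : K) : M.down T x = M.Jad (T (M.J x)) := rfl

lemma Model.jj_apply (T : Op K) (v : M.H) : M.jj T v = M.J (T (M.Jad v)) := rfl

lemma Model.jj_J (T : Op K) (x : K) : M.jj T (M.J x) = M.J (T x) := by
  rw [M.jj_apply, M.Jad_J]

lemma Model.Jad_ι (T : Op K) (v : M.H) : M.Jad (M.ι T v) = T (M.Jad v) := by
  refine ext_inner_left ℂ fun y => ?_
  rw [adjoint_inner_right, ← adjoint_inner_left T, adjoint_inner_right,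
    ← adjoint_inner_left (M.ι T), ← star_eq_adjoint, ← star_eq_adjoint, ← map_star]
  exact congrArg (⟪·, v⟫_ℂ) (M.comm (star T) y)

lemma Model.Jad_c (f : d.E × Bool) (v : M.H) : M.Jad (M.c f v) = 0 := by
  refine ext_inner_left ℂ fun y => ?_
  rw [adjoint_inner_right, ← adjoint_inner_left (M.c f), ← star_eq_adjoint]
  show ⟪star (M.c f) (M.J y), v⟫_ℂ = _
  rw [M.c_star_J]
  simp

lemma Model.ι_injective : Function.Injective M.ι :=
  Function.LeftInverse.injective (g := M.down) M.down_ι

lemma Model.norm_ι (T : Op K) : ‖M.ι T‖ = ‖T‖ :=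
  NonUnitalStarAlgHom.norm_map M.ι M.ι_injective T

lemma Model.isometry_ι : Isometry M.ι :=
  AddMonoidHomClass.isometry_of_norm M.ι M.norm_ι

lemma Model.jj_mul (S T : Op K) : M.jj S * M.jj T = M.jj (S * T) := by
  ext v
  show M.jj S (M.jj T v) = _
  rw [M.jj_apply T, M.jj_J]
  rfl

lemma Model.star_jj (T : Op K) : star (M.jj T) = M.jj (star T) := by
  simp only [star_eq_adjoint, Model.jj, adjoint_comp, adjoint_adjoint, comp_assoc]

lemma Model.ι_mul_jj (S T : Op K) : M.ι S * M.jj T = M.jj (S * T) := by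
  ext v
  exact M.comm S _

lemma Model.jj_mul_ι (S T : Op K) : M.jj S * M.ι T = M.jj (S * T) := by
  ext v
  show M.jj S (M.ι T v) = _
  rw [M.jj_apply, M.Jad_ι]
  rfl

lemma Model.jj_mul_c (T : Op K) (f : d.E × Bool) : M.jj T * M.c f = 0 := by
  ext v
  show M.jj T (M.c f v) = 0
  rw [M.jj_apply, M.Jad_c, map_zero, map_zero]

lemma Model.lev_zero_mul_c (f : d.E × Bool) : M.lev 0 * M.c f = 0 := by
  ext v
  show M.lev 0 (M.c f v) = 0
  have hmem : M.lev 0 (M.lev 0 (M.c f v)) = M.lev 0 (M.c f v) :=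
    congrArg (fun R : Op M.H => R (M.c f v)) (M.lev_idem 0)
  obtain ⟨x, hx⟩ := (M.lev_zero _).1 hmem
  have hJ : M.lev 0 (M.J x) = M.J x := (M.lev_zero _).2 ⟨x, rfl⟩
  have h1 : M.Jad (M.lev 0 (M.c f v)) = 0 := by
    refine ext_inner_left ℂ fun y => ?_
    rw [adjoint_inner_right, ← adjoint_inner_left (M.lev 0), ← star_eq_adjoint, M.lev_star,
      LinearIsometry.coe_toContinuousLinearMap, (M.lev_zero _).2 ⟨y, rfl⟩]
    have h := congrArg (⟪y, ·⟫_ℂ) (M.Jad_c f v)
    rwa [adjoint_inner_right] at h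
  rw [← hx, M.Jad_J] at h1
  rw [← hx, h1, map_zero]

end Model

end Vale.Agent.P070.Club
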