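import Vale.Agent.P070.Club.StepGood.Gen

/-!
# Windows over a member of the club in one step

For a member `C₀` with cyclic projection `P` and a set `s` of edges over it: the projection `B`
onto the part of the new space reached through the edges of `s`, the windows built from it, and
the fact that every window compresses `C = gen C₀ s` onto `C₀`.
-/

namespace Vale.Agent.P070.Club

open ContinuousLinearMap
open scoped InnerProductSpace

set_option linter.unusedSectionVars false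

variable {K : Type} [NormedAddCommGroup K] [InnerProductSpace ℂ K] [CompleteSpace K]
  {d : StepData K}

/-- The data of a member `C₀` together with edges lying over it. -/
structure Model.Ctx (M : Model d) (ξ : K) (C₀ : StarSubalgebra ℂ (Op K)) (s : Set d.E) : Prop where
  ok : d.Ok
  closed : IsClosed (C₀ : Set (Op K))
  r_mem : ∀ f : d.E × Bool, f.1 ∈ s → ∀ n, d.r f n ∈ C₀
  comp : Compresses (cyc C₀ ξ) C₀ d.A
  fix : ∀ f : d.E × Bool, f.1 ∈ s →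
    ∀ n, (d.fib f n).ρ (cyc C₀ ξ) (d.fib f n).η = (d.fib f n).η

variable (M : Model d) (ξ : K) (C₀ : StarSubalgebra ℂ (Op K)) (s : Set d.E)

/-- The vectors reached through the edges of `s`. -/
def Model.bigSet : Set M.H := {v | ∃ T f l, f.1 ∈ s ∧ M.ι T (M.c f l) = v}

/-- The projection onto the part reached through the edges of `s`. -/
noncomputable def Model.B : Op M.H := spanProj (M.bigSet s)

/-- The window seen by all operators of the old space. -/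
noncomputable def Model.W₁ : Op M.H := M.B s + M.jj 1

/-- The part of the member reached through the edges. -/
noncomputable def Model.Q : Op M.H := M.ι (cyc C₀ ξ) * M.B s

/-- The part of the member reached through the edges or inside the old space. -/
noncomputable def Model.Q₁ : Op M.H := M.ι (cyc C₀ ξ) * M.W₁ s

/-- The complement of `Q`. -/
noncomputable def Model.W : Op M.H := 1 - M.Q ξ C₀ s

lemma Model.B_ι (T : Op K) : M.ι T * M.B s = M.B s * M.ι T := by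
  refine spanProj_comm _ ?_ ?_ <;> rintro v ⟨S, f, l, hf, rfl⟩
  · exact subset_clSpan ⟨T * S, f, l, hf, by rw [map_mul]; rfl⟩
  · rw [← map_star]
    exact subset_clSpan ⟨star T * S, f, l, hf, by rw [map_mul]; rfl⟩

lemma Model.B_c {f : d.E × Bool} (hf : f.1 ∈ s) : M.B s * M.c f = M.c f := by
  ext v
  exact spanProj_self (subset_clSpan ⟨1, f, v, hf, by simp⟩)

lemma Model.B_c_off {g : d.E × Bool} (hg : g.1 ∉ s) : M.B s * M.c g = 0 := by
  ext v
  refine spanProj_zero ?_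
  rintro w ⟨T, f, l, hf, rfl⟩
  have h := M.orth f g (fun h => hg (h ▸ hf)) (star T)
  rw [← adjoint_inner_right, ← star_eq_adjoint, ← map_star, ← adjoint_inner_right,
    ← star_eq_adjoint]
  exact (congrArg (fun R : Op M.H => ⟪l, R v⟫_ℂ) h).trans (inner_zero_right l)

lemma Model.B_J (x : K) : M.B s (M.J x) = 0 := by
  refine spanProj_zero ?_
  rintro w ⟨T, f, l, hf, rfl⟩
  rw [← adjoint_inner_right, ← star_eq_adjoint, ← map_star, M.comm, ← adjoint_inner_right,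
    ← star_eq_adjoint, M.c_star_J, inner_zero_right]

lemma Model.B_mul_jj (T : Op K) : M.B s * M.jj T = 0 := by
  ext v
  exact M.B_J s _

lemma Model.jj_mul_B (T : Op K) : M.jj T * M.B s = 0 := by
  have h := congrArg star (M.B_mul_jj s (star T))
  rwa [star_mul, star_zero, M.star_jj, star_star, show star (M.B s) = M.B s from star_spanProj _]
    at h

lemma Model.W₁_ι (T : Op K) : M.ι T * M.W₁ s = M.W₁ s * M.ι T := by
  rw [Model.W₁, mul_add, add_mul, M.B_ι, M.ι_mul_jj, M.jj_mul_ι, mul_one, one_mul]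

lemma Model.star_W₁ : star (M.W₁ s) = M.W₁ s := by
  rw [Model.W₁, star_add, M.star_jj, star_one, show star (M.B s) = M.B s from star_spanProj _]

lemma Model.W₁_J (x : K) : M.W₁ s (M.J x) = M.J x := by
  show M.B s (M.J x) + M.jj 1 (M.J x) = _
  rw [M.B_J, M.jj_J, zero_add]
  rfl

lemma Model.W₁_idem : M.W₁ s * M.W₁ s = M.W₁ s := by
  rw [Model.W₁, mul_add, add_mul, add_mul, M.B_mul_jj, M.jj_mul_B, M.jj_mul, mul_one,
    show M.B s * M.B s = M.B s from spanProj_idem _, add_zero, zero_add]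

lemma Model.W₁_c_off {g : d.E × Bool} (hg : g.1 ∉ s) : M.W₁ s * M.c g = 0 := by
  rw [Model.W₁, add_mul, M.B_c_off s hg, M.jj_mul_c, add_zero]

variable {M ξ C₀ s} (h : M.Ctx ξ C₀ s)
include h

lemma Model.Ctx.P_star : star (cyc C₀ ξ) = cyc C₀ ξ := h.comp.star_eq

lemma Model.Ctx.P_idem : cyc C₀ ξ * cyc C₀ ξ = cyc C₀ ξ := h.comp.idem

lemma Model.Ctx.star_ιP : star (M.ι (cyc C₀ ξ)) = M.ι (cyc C₀ ξ) := by
  rw [← map_star, h.P_star]

lemma Model.Ctx.ιP_c {f : d.E × Bool} (hf : f.1 ∈ s) : M.ι (cyc C₀ ξ) * M.c f = M.c f :=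
  M.support f _ (h.fix f hf)

lemma Model.Ctx.Q_star : star (M.Q ξ C₀ s) = M.Q ξ C₀ s := by
  rw [Model.Q, star_mul, show star (M.B s) = M.B s from star_spanProj _, h.star_ιP, M.B_ι]

lemma Model.Ctx.Q₁_star : star (M.Q₁ ξ C₀ s) = M.Q₁ ξ C₀ s := by
  rw [Model.Q₁, star_mul, M.star_W₁, h.star_ιP, M.W₁_ι]

lemma Model.Ctx.Q_idem : M.Q ξ C₀ s * M.Q ξ C₀ s = M.Q ξ C₀ s := by
  rw [Model.Q, mul_assoc, ← mul_assoc (M.B s), ← M.B_ι, mul_assoc,
    show M.B s * M.B s = M.B s from spanProj_idem _, ← mul_assoc, ← map_mul, h.P_idem]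

lemma Model.Ctx.Q₁_eq : M.Q₁ ξ C₀ s = M.Q ξ C₀ s + M.jj (cyc C₀ ξ) := by
  rw [Model.Q₁, Model.W₁, mul_add, M.ι_mul_jj, mul_one, Model.Q]

lemma Model.Ctx.Q_mul_jj (T : Op K) : M.Q ξ C₀ s * M.jj T = 0 := by
  rw [Model.Q, mul_assoc, M.B_mul_jj, mul_zero]

lemma Model.Ctx.Q_mul_Q₁ : M.Q ξ C₀ s * M.Q₁ ξ C₀ s = M.Q ξ C₀ s := by
  rw [h.Q₁_eq, mul_add, h.Q_idem, h.Q_mul_jj, add_zero]

lemma Model.Ctx.Q₁_mul_Q : M.Q₁ ξ C₀ s * M.Q ξ C₀ s = M.Q ξ C₀ s := by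
  have := congrArg star h.Q_mul_Q₁
  rwa [star_mul, h.Q_star, h.Q₁_star] at this

lemma Model.Ctx.Q₁_idem : M.Q₁ ξ C₀ s * M.Q₁ ξ C₀ s = M.Q₁ ξ C₀ s := by
  rw [Model.Q₁, mul_assoc, ← mul_assoc (M.W₁ s), ← M.W₁_ι, mul_assoc, M.W₁_idem, ← mul_assoc,
    ← map_mul, h.P_idem]

lemma Model.Ctx.ιP_Q₁ : M.ι (cyc C₀ ξ) * M.Q₁ ξ C₀ s = M.Q₁ ξ C₀ s := by
  rw [Model.Q₁, ← mul_assoc, ← map_mul, h.P_idem]

lemma Model.Ctx.Q₁_ιC {c : Op K} (hc : c ∈ C₀) :
    M.ι c * M.Q₁ ξ C₀ s = M.Q₁ ξ C₀ s * M.ι c := by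
  rw [Model.Q₁, ← mul_assoc, ← map_mul, h.comp.comm c hc, mul_assoc, ← M.W₁_ι, ← mul_assoc,
    ← map_mul]

lemma Model.Ctx.W_star : star (M.W ξ C₀ s) = M.W ξ C₀ s := by
  rw [Model.W, star_sub, star_one, h.Q_star]

lemma Model.Ctx.W_idem : M.W ξ C₀ s * M.W ξ C₀ s = M.W ξ C₀ s := by
  rw [Model.W, sub_mul, one_mul, mul_sub, mul_one, h.Q_idem, sub_self, sub_zero]

lemma Model.Ctx.W_ιC {c : Op K} (hc : c ∈ C₀) :
    M.ι c * M.W ξ C₀ s = M.W ξ C₀ s * M.ι c := by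
  rw [Model.W, mul_sub, sub_mul, mul_one, one_mul, Model.Q, ← mul_assoc, ← map_mul,
    h.comp.comm c hc, mul_assoc, ← M.B_ι, ← mul_assoc, ← map_mul]

lemma Model.Ctx.W_c {f : d.E × Bool} (hf : f.1 ∈ s) : M.W ξ C₀ s * M.c f = 0 := by
  rw [Model.W, sub_mul, one_mul, Model.Q, mul_assoc, M.B_c s hf, h.ιP_c hf, sub_self]

lemma Model.Ctx.W_J (x : K) : M.W ξ C₀ s (M.J x) = M.J x := by
  show M.J x - M.ι (cyc C₀ ξ) (M.B s (M.J x)) = _
  rw [M.B_J, map_zero, sub_zero]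

lemma Model.Ctx.one_sub_Q₁_mul_W :
    (1 - M.Q₁ ξ C₀ s) * M.W ξ C₀ s = 1 - M.Q₁ ξ C₀ s := by
  rw [Model.W, mul_sub, mul_one, sub_mul, one_mul, h.Q₁_mul_Q, sub_self, sub_zero]

lemma Model.Ctx.W_mul_one_sub_Q₁ :
    M.W ξ C₀ s * (1 - M.Q₁ ξ C₀ s) = 1 - M.Q₁ ξ C₀ s := by
  rw [Model.W, sub_mul, one_mul, mul_sub, mul_one, h.Q_mul_Q₁, sub_self, sub_zero]

/-- The window of the link commutes with the member and kills its edges. -/
lemma Model.Ctx.compress_window {y : Op M.H} (hy : y ∈ M.gen C₀ s) :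
    (1 - M.ι (cyc C₀ ξ) + M.jj (cyc C₀ ξ)) * y * (1 - M.ι (cyc C₀ ξ) + M.jj (cyc C₀ ξ)) =
      M.ι (M.down y) * (1 - M.ι (cyc C₀ ξ) + M.jj (cyc C₀ ξ)) := by
  refine Model.compress_gen h.ok h.comp.le h.closed h.r_mem ?_ ?_ ?_ ?_ hy
  · rw [star_add, star_sub, star_one, M.star_jj, h.P_star, h.star_ιP]
  · simp only [mul_add, add_mul, mul_sub, sub_mul, mul_one, one_mul, ← map_mul, M.ι_mul_jj,
      M.jj_mul_ι, M.jj_mul, h.P_idem]
    abel
  · intro c hc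
    rw [mul_add, add_mul, mul_sub, sub_mul, mul_one, one_mul, ← map_mul, ← map_mul, M.ι_mul_jj,
      M.jj_mul_ι, h.comp.comm c hc]
  · intro f hf
    rw [add_mul, sub_mul, one_mul, h.ιP_c hf, M.jj_mul_c, sub_self, add_zero]

/-- The window `W`. -/
lemma Model.Ctx.compress_W {y : Op M.H} (hy : y ∈ M.gen C₀ s) :
    M.W ξ C₀ s * y * M.W ξ C₀ s = M.ι (M.down y) * M.W ξ C₀ s :=
  Model.compress_gen h.ok h.comp.le h.closed h.r_mem h.W_star h.W_idem
    (fun _ hc => (h.W_ιC hc).symm) (fun _ hf => h.W_c hf) hy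

lemma Model.Ctx.down_mem {y : Op M.H} (hy : y ∈ M.gen C₀ s) : M.down y ∈ C₀ :=
  Model.down_mem h.ok h.comp.le h.closed h.r_mem hy

/-- The algebra of the other edges is compressed by `Q₁` into `C₀`. -/
lemma Model.Ctx.compress_Q₁ {a : Op M.H} (ha : a ∈ M.gen d.A sᶜ) :
    ∃ c ∈ C₀, M.Q₁ ξ C₀ s * a * M.Q₁ ξ C₀ s = M.ι c * M.Q₁ ξ C₀ s := by
  have hr : ∀ f : d.E × Bool, f.1 ∈ sᶜ → ∀ n, d.r f n ∈ d.A := fun f _ => (h.ok.proj f).mem
  have hW := Model.compress_gen h.ok le_rfl h.ok.closed hr (M.star_W₁ s) (M.W₁_idem s)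
    (fun c _ => (M.W₁_ι s c).symm) (fun f hf => M.W₁_c_off s hf) ha
  obtain ⟨c, hc, hPc⟩ := h.comp.compress _ (Model.down_mem h.ok le_rfl h.ok.closed hr ha)
  refine ⟨c, hc, ?_⟩
  calc M.Q₁ ξ C₀ s * a * M.Q₁ ξ C₀ s
      = M.ι (cyc C₀ ξ) * (M.W₁ s * a * M.W₁ s) * M.ι (cyc C₀ ξ) := by
        conv_lhs => rw [Model.Q₁]; arg 2; rw [M.W₁_ι]
        simp only [mul_assoc]
    _ = M.ι (cyc C₀ ξ * M.down a * cyc C₀ ξ) * M.W₁ s := by
        rw [hW, mul_assoc, mul_assoc, ← M.W₁_ι, ← mul_assoc, ← mul_assoc, ← map_mul, ← map_mul]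
    _ = M.ι c * M.Q₁ ξ C₀ s := by
        rw [hPc, map_mul, mul_assoc]
        rfl

end Vale.Agent.P070.Club
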